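import Mathlib.Geometry.Manifold.Algebra.LieGroup
import Mathlib.Analysis.InnerProductSpace.PiL2

/-!
Definitions for the statement of `P228.A0SingularSpaces`.
-/

namespace Vale.Agent.N228

open scoped Manifold ContDiff

/-- The given topology of the group `G` carries an atlas with values in some `ℝ^d` for which `G`
is a smooth manifold with smooth multiplication and inversion. -/
def IsLie (G : Type*) [Group G] [TopologicalSpace G] : Prop :=
  ∃ (d : ℕ) (_ : ChartedSpace (EuclideanSpace ℝ (Fin d)) G),
    LieGroup (modelWithCornersSelf ℝ (EuclideanSpace ℝ (Fin d))) ∞ G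

/-- `U` is a finite union of connected sets `V i`, and every point of `V i` has an open
neighbourhood in `X` which is homeomorphic to an open subset of `ℝ^(n i)`. -/
def Pieces {X : Type*} [TopologicalSpace X] (U : Set X) : Prop :=
  ∃ (k : ℕ) (V : Fin k → Set X) (n : Fin k → ℕ), U = ⋃ i, V i ∧ ∀ i, IsConnected (V i) ∧
    ∀ x ∈ V i, ∃ e : OpenPartialHomeomorph X (EuclideanSpace ℝ (Fin (n i))), x ∈ e.source

end Vale.Agent.N228
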