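import Vale.Agent.N228.Top
import Vale.Agent.P228.H491.Equi
import Vale.Agent.P228Z.Lie

/-!
The Hilbert-Smith theorem for spaces with manifold points, isometry groups, and almost periodic
homeomorphisms.
-/

namespace Vale.Agent.N228

open Set Topology Metric Filter Vale.Agent.P228.H491

universe u v

section pieces

variable {X : Type u} [TopologicalSpace X]

/-- the points with a chart in `ℝ^n` -/
def Reg (n : ℕ) (X : Type u) [TopologicalSpace X] : Set X :=
  {x | ∃ e : OpenPartialHomeomorph X (EuclideanSpace ℝ (Fin n)), x ∈ e.source}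

theorem isOpen_comp (n : ℕ) (x₀ : X) : IsOpen (connectedComponentIn (Reg n X) x₀) := by
  rw [isOpen_iff_mem_nhds]
  intro y hy
  obtain ⟨e, he⟩ := connectedComponentIn_subset _ _ hy
  obtain ⟨r, hr, hball⟩ := Metric.isOpen_iff.1 e.open_target _ (e.map_source he)
  have h1 : IsPreconnected (e.symm '' ball (e y) r) :=
    (convex_ball _ _).isPreconnected.image _ (e.continuousOn_symm.mono hball)
  have h2 : e.symm '' ball (e y) r ⊆ Reg n X := by
    rintro _ ⟨z, hz, rfl⟩
    exact ⟨e, e.map_target (hball hz)⟩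
  have h3 : y ∈ e.symm '' ball (e y) r := ⟨e y, mem_ball_self hr, e.left_inv he⟩
  have h4 := h1.subset_connectedComponentIn h3 h2
  rw [← connectedComponentIn_eq hy] at h4
  exact mem_of_superset ((e.symm.isOpen_image_of_subset_source isOpen_ball hball).mem_nhds h3) h4

variable {G : Type v} [Group G] [TopologicalSpace G] [MulAction G X] [ContinuousSMul G X]

theorem reg_smul (n : ℕ) (g : G) {x : X} (hx : x ∈ Reg n X) : g • x ∈ Reg n X := by
  obtain ⟨e, he⟩ := hx
  refine ⟨(Homeomorph.smul g⁻¹).toOpenPartialHomeomorph.trans e, mem_univ _, ?_⟩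
  show g⁻¹ • g • x ∈ e.source
  rwa [inv_smul_smul]

theorem comp_smul (n : ℕ) (x₀ : X) (g : G) {y : X} (hy : y ∈ connectedComponentIn (Reg n X) x₀)
    (hgy : g • y ∈ connectedComponentIn (Reg n X) x₀) {x : X}
    (hx : x ∈ connectedComponentIn (Reg n X) x₀) : g • x ∈ connectedComponentIn (Reg n X) x₀ := by
  have h1 : IsPreconnected ((fun z => g • z) '' connectedComponentIn (Reg n X) x₀) :=
    isPreconnected_connectedComponentIn.image _ (continuous_const_smul g).continuousOn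
  have h2 : (fun z => g • z) '' connectedComponentIn (Reg n X) x₀ ⊆ Reg n X := by
    rintro _ ⟨z, hz, rfl⟩
    exact reg_smul n g (connectedComponentIn_subset _ _ hz)
  have h4 := h1.subset_connectedComponentIn ⟨y, hy, rfl⟩ h2
  rw [← connectedComponentIn_eq hgy] at h4
  exact h4 ⟨x, hx, rfl⟩

theorem small_piece [T2Space X] [IsTopologicalGroup G] [T2Space G] [LocallyCompactSpace G]
    (n : ℕ) (V : Set X) (hV : IsConnected V) (hVR : V ⊆ Reg n X) :
    ∃ W ∈ 𝓝 (1 : G), ∀ H : Subgroup G, (H : Set G) ⊆ W → ∀ h ∈ H, ∀ x ∈ V, h • x = x := by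
  obtain ⟨x₀, hx₀⟩ := hV.nonempty
  obtain ⟨C, hC⟩ : ∃ C, C = connectedComponentIn (Reg n X) x₀ := ⟨_, rfl⟩
  have hCo : IsOpen C := by rw [hC]; exact isOpen_comp n x₀
  have h0 : x₀ ∈ C := by rw [hC]; exact mem_connectedComponentIn (hVR hx₀)
  have hVC : V ⊆ C := by rw [hC]; exact hV.isPreconnected.subset_connectedComponentIn hx₀ hVR
  have hCR : C ⊆ Reg n X := by rw [hC]; exact connectedComponentIn_subset _ _
  have hsm : ∀ (g : G) (y : X), y ∈ C → g • y ∈ C → ∀ x ∈ C, g • x ∈ C := by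
    intro g y hy hgy x hx
    rw [hC] at hy hgy hx ⊢
    exact comp_smul n x₀ g hy hgy hx
  have i1 : PreconnectedSpace C := by
    rw [← isPreconnected_iff_preconnectedSpace, hC]
    exact isPreconnected_connectedComponentIn
  choose e he using fun y : C => hCR y.2
  let i2 : ChartedSpace (EuclideanSpace ℝ (Fin n)) C :=
    { atlas := univ
      chartAt := fun y => (e y).subtypeRestr (s := ⟨C, hCo⟩) ⟨y⟩
      mem_chart_source := fun y => by
        rw [OpenPartialHomeomorph.subtypeRestr_source]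
        exact he y
      chart_mem_atlas := fun _ => mem_univ _ }
  let G0 : Subgroup G :=
    { carrier := {g | g • x₀ ∈ C}
      one_mem' := by
        show (1 : G) • x₀ ∈ C
        rwa [one_smul]
      mul_mem' := fun {a b} ha hb => by
        show (a * b) • x₀ ∈ C
        rw [mul_smul]
        exact hsm a x₀ h0 ha _ hb
      inv_mem' := fun {a} ha => hsm a⁻¹ (a • x₀) ha (by rwa [inv_smul_smul]) x₀ h0 }
  have hG0 : IsOpen (G0 : Set G) := hCo.preimage (continuous_id.smul continuous_const)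
  have i3 : LocallyCompactSpace G0 := hG0.locallyCompactSpace
  let i4 : MulAction G0 C :=
    { smul := fun g x => ⟨(g : G) • (x : X), hsm g x₀ h0 g.2 x x.2⟩
      one_smul := fun x => Subtype.ext (one_smul G (x : X))
      mul_smul := fun a b x => Subtype.ext (mul_smul (a : G) (b : G) (x : X)) }
  have i5 : ContinuousSMul G0 C := ⟨by
    refine Continuous.subtype_mk ?_ _
    exact (continuous_subtype_val.comp continuous_fst).smul
      (continuous_subtype_val.comp continuous_snd)⟩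
  obtain ⟨U, hU, hsmall⟩ := small_trivial n C G0
  refine ⟨Subtype.val '' U, hG0.isOpenMap_subtype_val.image_mem_nhds hU, fun H hH h hh x hx => ?_⟩
  have h1 : ∀ a ∈ H, a ∈ G0 := fun a ha => by
    obtain ⟨b, -, rfl⟩ := hH ha
    exact b.2
  have h2 := hsmall (H.subgroupOf G0) (fun a ha => by
    obtain ⟨b, hb, hab⟩ := hH (Subgroup.mem_subgroupOf.1 ha)
    rwa [← Subtype.ext hab]) ⟨h, h1 h hh⟩ (Subgroup.mem_subgroupOf.2 hh) ⟨x, hVC hx⟩
  exact congrArg Subtype.val h2

theorem nss_of_pieces [T2Space X] [IsTopologicalGroup G] [T2Space G] [LocallyCompactSpace G]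
    (U : Set X) (hU : Pieces U) (hf : ∀ g : G, (∀ x ∈ U, g • x = x) → g = 1) :
    ∃ W ∈ 𝓝 (1 : G), ∀ H : Subgroup G, (H : Set G) ⊆ W → H = ⊥ := by
  obtain ⟨k, V, n, rfl, hV⟩ := hU
  choose W hW hs using fun i => small_piece (G := G) (n i) (V i) (hV i).1 (hV i).2
  refine ⟨⋂ i, W i, iInter_mem.2 hW, fun H hH => ?_⟩
  rw [Subgroup.eq_bot_iff_forall]
  intro h hh
  refine hf h fun x hx => ?_
  obtain ⟨i, hi⟩ := mem_iUnion.1 hx
  exact hs i H (hH.trans (iInter_subset W i)) h hh x hi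

theorem lie_of_pieces [T2Space X] [IsTopologicalGroup G] [T2Space G] [LocallyCompactSpace G]
    (U : Set X) (hU : Pieces U) (hf : ∀ g : G, (∀ x ∈ U, g • x = x) → g = 1) : IsLie G :=
  Vale.Agent.P228Z.lie_of_nss G (nss_of_pieces U hU hf)

theorem eq_one_of_dense [T2Space X] [FaithfulSMul G X] {U : Set X} (hd : Dense U) (g : G)
    (h : ∀ x ∈ U, g • x = x) : g = 1 := by
  have h1 : (fun x : X => g • x) = id :=
    Continuous.ext_on hd (continuous_const_smul g) continuous_id h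
  exact eq_of_smul_eq_smul (α := X) fun x => by
    rw [one_smul]
    exact congrFun h1 x

theorem lie_of_dense [T2Space X] [IsTopologicalGroup G] [T2Space G] [LocallyCompactSpace G]
    [FaithfulSMul G X] (h : ∃ U : Set X, Pieces U ∧ Dense U) : IsLie G := by
  obtain ⟨U, h1, h2⟩ := h
  exact lie_of_pieces U h1 (eq_one_of_dense h2)

end pieces

/-- near the identity every element is on a one parameter subgroup -/
theorem exp_nhds (G : Type*) [Group G] [TopologicalSpace G] [IsTopologicalGroup G] [T2Space G]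
    [LocallyCompactSpace G]
    (hn : ∃ W ∈ 𝓝 (1 : G), ∀ H : Subgroup G, (H : Set G) ⊆ W → H = ⊥) :
    ∃ V ∈ 𝓝 (1 : G), ∀ g ∈ V, ∃ Y : ℝ → G, Continuous Y ∧ (∀ s t, Y (s + t) = Y s * Y t) ∧
      Y 1 = g := by
  obtain ⟨Γ⟩ := Vale.Agent.P228Z.exists_gmap hn
  let D : Vale.Agent.P228Z.EData Γ Γ.lie :=
    ⟨Γ.lie.subtypeₗᵢ, fun X v h => ⟨⟨v, X, h⟩, rfl⟩, fun w => w.2⟩
  have : FiniteDimensional ℝ Γ.lie := D.finiteDimensional
  refine ⟨D.dom, D.isOpen_dom.mem_nhds D.one_mem, ?_⟩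
  rintro _ ⟨v, -, rfl⟩
  exact ⟨fun t => D.ex (t • v), (D.isOP_ex v).continuous, (D.isOP_ex v).1, by simp⟩

section isometries

attribute [local instance] isoTop isoAct

theorem iso_lie (X : Type u) [MetricSpace X] [ConnectedSpace X] [LocallyCompactSpace X]
    (h : ∃ U : Set X, Pieces U ∧ Dense U) :
    IsTopologicalGroup (X ≃ᵢ X) ∧ IsLie (X ≃ᵢ X) ∧
      ∀ (x : X) (K : Set X), IsCompact K → IsCompact {g : X ≃ᵢ X | g x ∈ K} := by
  have i1 : IsTopologicalGroup (X ≃ᵢ X) := isTopologicalGroup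
  have i2 : T2Space (X ≃ᵢ X) := t2Space
  have i3 : ContinuousSMul (X ≃ᵢ X) X := continuousSMul
  have i4 : FaithfulSMul (X ≃ᵢ X) X := faithfulSMul
  have i5 : LocallyCompactSpace (X ≃ᵢ X) := locallyCompact_iso
  exact ⟨i1, lie_of_dense h, isCompact_into⟩

theorem flow_aux (X : Type u) (t : TopologicalSpace X) (m' : MetricSpace X)
    (ht : m'.toUniformSpace.toTopologicalSpace = t) [CompactSpace X]
    (h : ∃ U : Set X, Pieces U ∧ Dense U) (f : X ≃ₜ X)
    (hiso : ∀ x y, dist (f x) (f y) = dist x y) :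
    (∃ r : ℕ, 0 < r ∧ ∃ Φ : Flow ℝ X, ∀ x, Φ 1 x = (f ^ r) x) ∧
    ∃ W ∈ 𝓝 (id : X → X), ∀ m : ℕ, (∀ k : ℤ, (fun x => (f ^ (m * k)) x) ∈ W) → f ^ m = 1 := by
  subst ht
  have i1 : IsTopologicalGroup (X ≃ᵢ X) := isTopologicalGroup
  have i2 : T2Space (X ≃ᵢ X) := t2Space
  have i3 : ContinuousSMul (X ≃ᵢ X) X := continuousSMul
  have i4 : FaithfulSMul (X ≃ᵢ X) X := faithfulSMul
  have i5 : CompactSpace (X ≃ᵢ X) := compactSpace_iso
  obtain ⟨U, h1, h2⟩ := h
  have hn := nss_of_pieces (G := X ≃ᵢ X) U h1 (eq_one_of_dense h2)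
  let F : X ≃ᵢ X := ⟨f.toEquiv, Isometry.of_dist_eq hiso⟩
  have hF : ∀ (r : ℕ) (x : X), (F ^ r) x = (f ^ r) x := by
    intro r
    induction r with
    | zero => intro x; rfl
    | succ r ih =>
      intro x
      rw [pow_succ, pow_succ]
      exact ih (f x)
  have hZ : ∀ (k : ℤ) (x : X), (F ^ k) x = (f ^ k) x := by
    intro k x
    obtain ⟨r, rfl | rfl⟩ := k.eq_nat_or_neg
    · rw [zpow_natCast, zpow_natCast, hF]
    · rw [zpow_neg, zpow_neg, zpow_natCast, zpow_natCast]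
      apply (f ^ r).injective
      rw [← hF r, IsometryEquiv.apply_inv_self]
      exact ((f ^ r).apply_symm_apply x).symm
  constructor
  · obtain ⟨V, hV, hY⟩ := exp_nhds (X ≃ᵢ X) hn
    obtain ⟨r, hr1, hr2⟩ := (((mapClusterPt_one_atTop_pow F).frequently hV).and_eventually
      (eventually_gt_atTop 0)).exists
    obtain ⟨Y, hY1, hY2, hY3⟩ := hY _ hr1
    refine ⟨r, hr2, ⟨fun s x => Y s x, ?_, fun s t x => ?_, fun x => ?_⟩, fun x => ?_⟩
    · exact Vale.Agent.P228.H491.continuous_eval.comp ((hY1.comp continuous_fst).prodMk continuous_snd)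
    · rw [hY2]; rfl
    · rw [Vale.Agent.P228Z.GMap.hom_zero hY2]; rfl
    · show Y 1 x = _
      rw [hY3, hF]
  · obtain ⟨W, hW, hH⟩ := hn
    rw [nhds_induced] at hW
    obtain ⟨W', hW', hsub⟩ := hW
    refine ⟨W', hW', fun m hm => ?_⟩
    have h3 : Subgroup.zpowers (F ^ m) = ⊥ := by
      refine hH _ ?_
      rintro _ ⟨k, rfl⟩
      apply hsub
      have e : (fun x => ((F ^ m) ^ k) x) = fun x => (f ^ (m * k)) x := by
        funext x
        rw [← zpow_natCast, ← zpow_mul, hZ]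
      show (fun x => ((F ^ m) ^ k) x) ∈ W'
      rw [e]
      exact hm k
    rw [Subgroup.zpowers_eq_bot] at h3
    refine Homeomorph.ext fun x => ?_
    rw [← hF, h3]
    rfl

end isometries

theorem flow_main (X : Type u) [MetricSpace X] [CompactSpace X]
    (h : ∃ U : Set X, Pieces U ∧ Dense U) (f : X ≃ₜ X)
    (hf : Equicontinuous fun (k : ℤ) (x : X) => (f ^ k) x) :
    (∃ r : ℕ, 0 < r ∧ ∃ Φ : Flow ℝ X, ∀ x, Φ 1 x = (f ^ r) x) ∧
    ∃ W ∈ 𝓝 (id : X → X), ∀ m : ℕ, (∀ k : ℤ, (fun x => (f ^ (m * k)) x) ∈ W) → f ^ m = 1 := by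
  have h1 := CompactSpace.uniformEquicontinuous_of_equicontinuous hf
  have h2 : UniformEquicontinuous fun (g : Subgroup.zpowers f) (x : X) => (g : X ≃ₜ X) x := by
    choose k hk using fun g : Subgroup.zpowers f => g.2
    have e : (fun (g : Subgroup.zpowers f) (x : X) => (g : X ≃ₜ X) x) =
        (fun (k : ℤ) (x : X) => (f ^ k) x) ∘ k := by
      funext g x
      show _ = (f ^ k g) x
      have := hk g
      beta_reduce at this
      rw [this]
    rw [e]
    exact h1.comp k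
  exact flow_aux X _ (imetric (Subgroup.zpowers f)) (imetric_top _ h2) h f
    (fun x y => idist_inv _ f (Subgroup.mem_zpowers f) x y)

/-- a regularly almost periodic homeomorphism is periodic -/
theorem periodic_of_regular (X : Type u) [MetricSpace X] [CompactSpace X]
    (h : ∃ U : Set X, Pieces U ∧ Dense U) (f : X ≃ₜ X)
    (hf : ∀ ε : ℝ, 0 < ε → ∃ m : ℕ, 0 < m ∧ ∀ (k : ℤ) (x : X), dist ((f ^ (m * k)) x) x < ε) :
    ∃ r : ℕ, 0 < r ∧ f ^ r = 1 := by
  have h1 : Equicontinuous fun (k : ℤ) (x : X) => (f ^ k) x := by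
    intro x₀
    rw [Metric.equicontinuousAt_iff_right]
    intro ε hε
    obtain ⟨m, hm, hk⟩ := hf (ε / 3) (by positivity)
    have h2 : ∀ᶠ x in 𝓝 x₀, ∀ j ∈ Finset.Ico (0 : ℤ) m, dist ((f ^ j) x₀) ((f ^ j) x) < ε / 3 := by
      rw [Finset.eventually_all]
      intro j _
      have h3 : Continuous fun x => dist ((f ^ j) x₀) ((f ^ j) x) :=
        continuous_const.dist (f ^ j).continuous
      exact (h3.tendsto x₀).eventually (gt_mem_nhds (by simpa using hε))
    filter_upwards [h2] with x hx k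
    have hm' : (0 : ℤ) < m := by exact_mod_cast hm
    have e : ∀ y, (f ^ k) y = (f ^ (m * (k / m))) ((f ^ (k % m)) y) := by
      intro y
      have : f ^ k = f ^ (m * (k / m)) * f ^ (k % m) := by
        rw [← zpow_add, Int.mul_ediv_add_emod]
      rw [this]
      rfl
    have a1 := hx (k % m) (Finset.mem_Ico.2 ⟨Int.emod_nonneg _ hm'.ne', Int.emod_lt_of_pos _ hm'⟩)
    have a2 := hk (k / m) ((f ^ (k % m)) x₀)
    have a3 := hk (k / m) ((f ^ (k % m)) x)
    rw [e x₀, e x]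
    linarith [dist_triangle4_right ((f ^ (m * (k / m))) ((f ^ (k % m)) x₀))
      ((f ^ (m * (k / m))) ((f ^ (k % m)) x)) ((f ^ (k % m)) x₀) ((f ^ (k % m)) x)]
  obtain ⟨-, W, hW, hm⟩ := flow_main X h f h1
  rw [nhds_pi] at hW
  obtain ⟨I, hI, t, ht, hsub⟩ := Filter.mem_pi.1 hW
  have h4 : ∀ᶠ ε in 𝓝 (0 : ℝ), ∀ i ∈ I, ball i ε ⊆ t i :=
    (eventually_all_finite hI).2 fun i _ => eventually_ball_subset (ht i)
  obtain ⟨ε, h5, h6⟩ := ((h4.filter_mono nhdsWithin_le_nhds).and
    (self_mem_nhdsWithin (s := Ioi (0 : ℝ)))).exists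
  obtain ⟨m, hm0, hk⟩ := hf ε h6
  exact ⟨m, hm0, hm m fun k => hsub fun i hi => h5 i hi (hk k i)⟩

theorem iso_main (X : Type u) [MetricSpace X] [ConnectedSpace X] [LocallyCompactSpace X]
    (h : ∃ U : Set X, Pieces U ∧ Dense U) [t : TopologicalSpace (X ≃ᵢ X)]
    (ht : IsInducing fun (g : X ≃ᵢ X) (x : X) => g x) :
    IsLie (X ≃ᵢ X) ∧ ∀ (x : X) (K : Set X), IsCompact K → IsCompact {g : X ≃ᵢ X | g x ∈ K} := by
  obtain rfl : t = isoTop X := ht.eq_induced
  exact (iso_lie X h).2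

theorem pieces_manifold (n : ℕ) (M : Type u) [TopologicalSpace M] [ConnectedSpace M]
    [ChartedSpace (EuclideanSpace ℝ (Fin n)) M] : ∃ U : Set M, Pieces U ∧ Dense U :=
  pieces_boundary (modelWithCornersSelf ℝ (EuclideanSpace ℝ (Fin n))) M

end Vale.Agent.N228
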