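import Vale.Agent.N228.Defs
import Vale.Agent.P228.H491.Iso

/-!
Topology: the interior of a connected manifold with boundary, and the theorem of van Dantzig and
van der Waerden on isometry groups of connected locally compact metric spaces.
-/

namespace Vale.Agent.N228

open Set Topology Metric Filter

universe u

/-- a set which is locally the closure of connected subsets is dense and connected -/
theorem dense_conn {M : Type u} [TopologicalSpace M] [PreconnectedSpace M] (D : Set M)
    (h : ∀ x, ∃ N ∈ 𝓝 x, ∃ P ⊆ D, IsPreconnected P ∧ N ⊆ closure P) :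
    Dense D ∧ IsPreconnected D := by
  have hd : Dense D := fun x => by
    obtain ⟨N, hN, P, hPD, -, hNP⟩ := h x
    exact closure_mono hPD (hNP (mem_of_mem_nhds hN))
  refine ⟨hd, fun u v hu hv huv hDu hDv => ?_⟩
  by_contra hne
  have hcov : (univ : Set M) ⊆ closure (D ∩ u) ∪ closure (D ∩ v) := by
    rw [← closure_union, ← inter_union_distrib_left, inter_eq_left.2 huv, hd.closure_eq]
  obtain ⟨x, -, hxu, hxv⟩ := isPreconnected_closed_iff.1 isPreconnected_univ _ _ isClosed_closure
    isClosed_closure hcov (by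
      obtain ⟨y, hy⟩ := hDu
      exact ⟨y, mem_univ _, subset_closure hy⟩) (by
      obtain ⟨y, hy⟩ := hDv
      exact ⟨y, mem_univ _, subset_closure hy⟩)
  obtain ⟨N, hN, P, hPD, hP, hNP⟩ := h x
  have key : ∀ w : Set M, IsOpen w → x ∈ closure (D ∩ w) → (P ∩ w).Nonempty := by
    intro w hw hx
    obtain ⟨y, hyN, -, hyw⟩ := mem_closure_iff_nhds.1 hx N hN
    obtain ⟨z, hzw, hzP⟩ := mem_closure_iff.1 (hNP hyN) w hw hyw
    exact ⟨z, hzP, hzw⟩
  obtain ⟨z, hzP, hz⟩ := hP u v hu hv (hPD.trans huv) (key u hu hxu) (key v hv hxv)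
  exact hne ⟨z, hPD hzP, hz⟩

section boundary

variable {E : Type*} [NormedAddCommGroup E] [NormedSpace ℝ E] {H : Type*} [TopologicalSpace H]

/-- the model map on the interior of its range -/
noncomputable def intChart (I : ModelWithCorners ℝ E H) : OpenPartialHomeomorph H E where
  toFun := I
  invFun := I.symm
  source := I ⁻¹' interior (range I)
  target := interior (range I)
  map_source' _ hx := hx
  map_target' y hy := by
    show I (I.symm y) ∈ interior (range I)
    rw [I.right_inv (interior_subset hy)]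
    exact hy
  left_inv' x _ := I.left_inv x
  right_inv' y hy := I.right_inv (interior_subset hy)
  open_source := isOpen_interior.preimage I.continuous
  open_target := isOpen_interior
  continuousOn_toFun := I.continuous.continuousOn
  continuousOn_invFun := I.continuous_symm.continuousOn

theorem interior_dense_conn (I : ModelWithCorners ℝ E H) (M : Type u) [TopologicalSpace M]
    [PreconnectedSpace M] [ChartedSpace H M] :
    Dense {x : M | ∃ e : OpenPartialHomeomorph M E, x ∈ e.source} ∧
      IsPreconnected {x : M | ∃ e : OpenPartialHomeomorph M E, x ∈ e.source} := by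
  refine dense_conn _ fun x => ?_
  obtain ⟨c, hc⟩ : ∃ c, c = chartAt H x := ⟨_, rfl⟩
  have hx : x ∈ c.source := by rw [hc]; exact mem_chart_source H x
  have hO : IsOpen (I.symm ⁻¹' c.target) := c.open_target.preimage I.continuous_symm
  have hxO : I (c x) ∈ I.symm ⁻¹' c.target := by
    show I.symm (I (c x)) ∈ c.target
    rw [I.left_inv]
    exact c.map_source hx
  obtain ⟨r, hr, hball⟩ := Metric.isOpen_iff.1 hO _ hxO
  have hψ : ContinuousOn (fun y => c.symm (I.symm y)) (ball (I (c x)) r) :=
    c.continuousOn_symm.comp I.continuous_symm.continuousOn fun y hy => hball hy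
  refine ⟨c.source ∩ (fun z => I (c z)) ⁻¹' ball (I (c x)) r, ?_,
    (fun y => c.symm (I.symm y)) '' (ball (I (c x)) r ∩ interior (range I)), ?_, ?_, ?_⟩
  · refine inter_mem (c.open_source.mem_nhds hx) ?_
    exact (I.continuous.continuousAt.comp (c.continuousAt hx)).preimage_mem_nhds
      (ball_mem_nhds _ hr)
  · rintro _ ⟨y, ⟨hy1, hy2⟩, rfl⟩
    refine ⟨c.trans (intChart I), c.map_target (hball hy1), ?_⟩
    show I (c (c.symm (I.symm y))) ∈ interior (range I)
    rw [c.right_inv (hball hy1), I.right_inv (interior_subset hy2)]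
    exact hy2
  · exact ((convex_ball _ _).inter I.convex_range.interior).isPreconnected.image _
      (hψ.mono inter_subset_left)
  · rintro z ⟨hz1, hz2⟩
    have h1 : I (c z) ∈ closure (ball (I (c x)) r ∩ interior (range I)) :=
      isOpen_ball.inter_closure ⟨hz2, I.range_subset_closure_interior (mem_range_self _)⟩
    have h2 : ContinuousAt (fun y => c.symm (I.symm y)) (I (c z)) :=
      hψ.continuousAt (isOpen_ball.mem_nhds hz2)
    have h3 := h2.continuousWithinAt.mem_closure_image h1
    rwa [I.left_inv, c.left_inv hz1] at h3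

theorem pieces_boundary {n : ℕ} (I : ModelWithCorners ℝ (EuclideanSpace ℝ (Fin n)) H)
    (M : Type u) [TopologicalSpace M] [ConnectedSpace M] [ChartedSpace H M] :
    ∃ U : Set M, Pieces U ∧ Dense U := by
  obtain ⟨h1, h2⟩ := interior_dense_conn I M
  exact ⟨_, ⟨1, fun _ => {x : M | ∃ e : OpenPartialHomeomorph M (EuclideanSpace ℝ (Fin n)),
    x ∈ e.source}, fun _ => n, (iUnion_const _).symm, fun _ => ⟨⟨h1.nonempty, h2⟩,
    fun _ hx => hx⟩⟩, h1⟩

end boundary

section isometries

open Vale.Agent.P228.H491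

variable {M : Type u} [MetricSpace M]

attribute [local instance] isoTop

/-- the orbit of `x` under the set `S` of isometries lies in a compact set -/
def Pre (S : Set (M ≃ᵢ M)) (x : M) : Prop := ∃ C : Set M, IsCompact C ∧ ∀ g ∈ S, g x ∈ C

theorem Pre.near {S : Set (M ≃ᵢ M)} {x y : M} {r : ℝ} (hr : 0 < r)
    (hc : IsCompact (closedBall x r)) (h : Pre S x) (hy : dist y x < r / 2) : Pre S y := by
  obtain ⟨C, hC, hS⟩ := h
  obtain ⟨t, ht1, ht2, ht3⟩ := exists_finite_cover_balls_of_isCompact_closure
    (s := (fun g : M ≃ᵢ M => g x) '' S) (ε := r / 2)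
    (hC.of_isClosed_subset isClosed_closure (closure_minimal (by
      rintro _ ⟨g, hg, rfl⟩
      exact hS g hg) hC.isClosed)) (by positivity)
  refine ⟨⋃ z ∈ t, closedBall z r, ht2.isCompact_biUnion fun z hz => ?_, fun g hg => ?_⟩
  · obtain ⟨g, -, rfl⟩ := ht1 hz
    show IsCompact (closedBall (g x) r)
    rw [← g.image_closedBall]
    exact hc.image g.continuous
  · obtain ⟨z, hz, hgz⟩ := mem_iUnion₂.1 (ht3 ⟨g, hg, rfl⟩)
    refine mem_iUnion₂.2 ⟨z, hz, ?_⟩
    rw [mem_closedBall]
    have h1 : dist (g x) z < r / 2 := hgz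
    have h2 : dist (g y) (g x) = dist y x := g.dist_eq y x
    linarith [dist_triangle (g y) (g x) z]

theorem Pre.all [PreconnectedSpace M] [LocallyCompactSpace M] {S : Set (M ≃ᵢ M)} {x₀ : M}
    (h : Pre S x₀) (x : M) : Pre S x := by
  have key : ∀ y : M, ∃ N ∈ 𝓝 y, ∀ a ∈ N, ∀ b ∈ N, Pre S a → Pre S b := by
    intro y
    obtain ⟨r, hr, hc⟩ := exists_isCompact_closedBall y
    refine ⟨ball y (r / 8), ball_mem_nhds _ (by positivity), fun a ha b hb hP => ?_⟩
    have ha' : dist a y < r / 8 := ha
    have hb' : dist b y < r / 8 := hb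
    refine hP.near (r := r / 2) (by positivity) (hc.of_isClosed_subset isClosed_closedBall
      (closedBall_subset_closedBall' (by linarith))) ?_
    linarith [dist_triangle_right b a y]
  have hA : IsClopen {x : M | Pre S x} := by
    constructor
    · rw [← isOpen_compl_iff, isOpen_iff_mem_nhds]
      intro y hy
      obtain ⟨N, hN, hk⟩ := key y
      exact mem_of_superset hN fun a ha hP => hy (hk a ha y (mem_of_mem_nhds hN) hP)
    · rw [isOpen_iff_mem_nhds]
      intro y hy
      obtain ⟨N, hN, hk⟩ := key y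
      exact mem_of_superset hN fun a ha => hk y (mem_of_mem_nhds hN) a ha hy
  have h2 := hA.eq_univ ⟨x₀, h⟩
  have h3 : x ∈ {x : M | Pre S x} := by rw [h2]; exact mem_univ x
  exact h3

/-- van Dantzig and van der Waerden -/
theorem isCompact_move' [PreconnectedSpace M] [LocallyCompactSpace M] (x₀ : M) (r : ℝ)
    (hc : IsCompact (closedBall x₀ r)) : IsCompact {g : M ≃ᵢ M | dist (g x₀) x₀ ≤ r} := by
  have h0 : Pre {g : M ≃ᵢ M | dist (g x₀) x₀ ≤ r} x₀ := ⟨_, hc, fun g hg => hg⟩
  choose C hC hCS using h0.all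
  let P : Set ((M → M) × (M → M)) :=
    {q | (∀ x y, dist (q.1 y) x = dist y (q.2 x)) ∧ dist (q.1 x₀) x₀ ≤ r}
  have hcl : IsClosed P := by
    have e : P = (⋂ x, ⋂ y, {q : (M → M) × (M → M) | dist (q.1 y) x = dist y (q.2 x)}) ∩
        {q : (M → M) × (M → M) | dist (q.1 x₀) x₀ ≤ r} := by
      ext q
      simp only [P, mem_inter_iff, mem_iInter, mem_ofPred_eq]
    rw [e]
    refine IsClosed.inter (isClosed_iInter fun x => isClosed_iInter fun y => ?_) ?_
    · refine isClosed_eq ?_ ?_
      · exact ((continuous_apply y).comp continuous_fst).dist continuous_const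
      · exact continuous_const.dist ((continuous_apply x).comp continuous_snd)
    · exact isClosed_le (((continuous_apply x₀).comp continuous_fst).dist continuous_const)
        continuous_const
  let B : Set (M → M) := Set.pi univ C
  have hB : IsCompact B := isCompact_univ_pi hC
  have hPB : P ⊆ B ×ˢ B := by
    intro q hq
    refine ⟨fun x _ => hCS x (ofPair q hq.1) hq.2, fun x _ => hCS x (ofPair q hq.1)⁻¹ ?_⟩
    show dist (q.2 x₀) x₀ ≤ r
    rw [dist_comm, ← hq.1 x₀ x₀]
    exact hq.2
  have hPc : IsCompact P := (hB.prod hB).of_isClosed_subset hcl hPB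
  have : CompactSpace P := isCompact_iff_compactSpace.1 hPc
  let Ψ : P → (M ≃ᵢ M) := fun q => ofPair q.1 q.2.1
  have hΨ : Continuous Ψ := by
    rw [continuous_induced_rng]
    exact continuous_fst.comp continuous_subtype_val
  have hr : IsCompact (Set.range Ψ) := isCompact_range hΨ
  have e : {g : M ≃ᵢ M | dist (g x₀) x₀ ≤ r} = Set.range Ψ := by
    ext g
    constructor
    · intro hg
      refine ⟨⟨((g : M → M), (g⁻¹ : M ≃ᵢ M)), fun x y => ?_, hg⟩, ?_⟩
      · show dist (g y) x = dist y (g⁻¹ x)
        rw [← g.dist_eq y, IsometryEquiv.apply_inv_self]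
      · exact IsometryEquiv.ext fun x => rfl
    · rintro ⟨q, rfl⟩
      exact q.2.2
  rw [e]
  exact hr

theorem locallyCompact_iso [ConnectedSpace M] [LocallyCompactSpace M] :
    LocallyCompactSpace (M ≃ᵢ M) := by
  have := isTopologicalGroup (M := M)
  obtain ⟨x₀⟩ : Nonempty M := inferInstance
  obtain ⟨r, hr, hc⟩ := exists_isCompact_closedBall x₀
  refine (isCompact_move' x₀ r hc).locallyCompactSpace_of_mem_nhds_of_group (x := 1) ?_
  have h1 : Continuous fun g : M ≃ᵢ M => dist (g x₀) x₀ :=
    (continuous_apply' x₀).dist continuous_const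
  have h2 : {g : M ≃ᵢ M | dist (g x₀) x₀ < r} ∈ 𝓝 (1 : M ≃ᵢ M) := by
    refine (isOpen_lt h1 continuous_const).mem_nhds ?_
    simpa using hr
  refine Filter.mem_of_superset h2 fun g hg => ?_
  have h3 : dist (g x₀) x₀ < r := hg
  exact h3.le

/-- the action of the isometry group is proper -/
theorem isCompact_into [PreconnectedSpace M] [LocallyCompactSpace M] (x₀ : M) (K : Set M)
    (hK : IsCompact K) : IsCompact {g : M ≃ᵢ M | g x₀ ∈ K} := by
  have := isTopologicalGroup (M := M)
  obtain ⟨r, hr, hc⟩ := exists_isCompact_closedBall x₀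
  obtain ⟨t, ht1, ht2, ht3⟩ := exists_finite_cover_balls_of_isCompact_closure
    (s := (fun g : M ≃ᵢ M => g x₀) '' {g : M ≃ᵢ M | g x₀ ∈ K}) (ε := r)
    (hK.of_isClosed_subset isClosed_closure (closure_minimal (by
      rintro _ ⟨g, hg, rfl⟩
      exact hg) hK.isClosed)) hr
  have h1 : ∀ z ∈ t, IsCompact {g : M ≃ᵢ M | dist (g x₀) z ≤ r} := by
    intro z hz
    obtain ⟨a, -, rfl⟩ := ht1 hz
    have e : {g : M ≃ᵢ M | dist (g x₀) (a x₀) ≤ r} =
        (fun h => a * h) '' {g : M ≃ᵢ M | dist (g x₀) x₀ ≤ r} := by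
      ext g
      constructor
      · intro hg
        refine ⟨a⁻¹ * g, ?_, mul_inv_cancel_left a g⟩
        show dist (a⁻¹ (g x₀)) x₀ ≤ r
        rw [← a.dist_eq, IsometryEquiv.apply_inv_self]
        exact hg
      · rintro ⟨h, hh, rfl⟩
        show dist (a (h x₀)) (a x₀) ≤ r
        rw [a.dist_eq]
        exact hh
    show IsCompact {g : M ≃ᵢ M | dist (g x₀) (a x₀) ≤ r}
    rw [e]
    exact (isCompact_move' x₀ r hc).image (continuous_const.mul continuous_id)
  refine (ht2.isCompact_biUnion h1).of_isClosed_subset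
    (hK.isClosed.preimage (continuous_apply' x₀)) fun g hg => ?_
  obtain ⟨z, hz, hgz⟩ := mem_iUnion₂.1 (ht3 ⟨g, hg, rfl⟩)
  exact mem_iUnion₂.2 ⟨z, hz, (mem_ball.1 hgz).le⟩

end isometries

end Vale.Agent.N228
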